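import Vale.Agent.P031.PNT.Fejer

/-!
The smoothed Chebyshev function: Laplace transform and the limit on the boundary line.
-/

open Real MeasureTheory Set Filter Topology Chebyshev
open ArithmeticFunction (vonMangoldt)

namespace Vale.Agent.P031.PNT

/-- `ψ(e^t) e^(-t)`. -/
noncomputable def fr (t : ℝ) : ℝ := psi (exp t) * exp (-t)

theorem fr_nonneg (t : ℝ) : 0 ≤ fr t := mul_nonneg (psi_nonneg _) (exp_pos _).le

theorem fr_le (t : ℝ) : fr t ≤ log 4 + 4 := by
  rw [fr, exp_neg, ← div_eq_mul_inv, div_le_iff₀ (exp_pos t)]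
  exact psi_le_const_mul_self (exp_pos t).le

theorem fr_of_nonpos {t : ℝ} (ht : t ≤ 0) : fr t = 0 := by
  rw [fr, psi_eq_zero_of_le_one (exp_le_one_iff.2 ht), zero_mul]

theorem measurable_fr : Measurable fr :=
  ((psi_mono.comp exp_monotone).measurable).mul (by fun_prop)

theorem fr_slow {s t : ℝ} (h : s ≤ t) : fr s * exp (s - t) ≤ fr t := by
  rw [fr, fr, mul_assoc, ← exp_add, show -s + (s - t) = -t by ring]
  exact mul_le_mul_of_nonneg_right (psi_mono (exp_le_exp.2 h)) (exp_pos _).le

/-- The auxiliary function, continuous on the closed half plane. -/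
noncomputable def bdry (z : ℂ) : ℂ :=
  (vonMangoldt.LFunctionResidueClassAux (0 : ZMod 1) (1 + z) - 1) / (1 + z)

theorem continuousOn_bdry : ContinuousOn bdry {z | 0 ≤ z.re} := by
  unfold bdry
  refine ((ContinuousOn.comp (vonMangoldt.continuousOn_LFunctionResidueClassAux (0 : ZMod 1))
    (by fun_prop) fun z hz => ?_).sub continuousOn_const).div (by fun_prop) fun z hz h => ?_
  · simp only [mem_ofPred_eq, Complex.add_re, Complex.one_re] at hz ⊢
    linarith
  · have := congrArg Complex.re h
    simp only [mem_ofPred_eq] at hz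
    simp at this
    linarith

theorem integrableOn_laplace {z : ℂ} (hz : 0 < z.re) :
    IntegrableOn (fun t : ℝ => (fr t : ℂ) * Complex.exp (-z * t)) (Ioi 0) := by
  refine Integrable.mono' ((exp_neg_integrableOn_Ioi 0 hz).const_mul (log 4 + 4))
    ((Complex.measurable_ofReal.comp measurable_fr).aestronglyMeasurable.mul
      (Continuous.aestronglyMeasurable (by fun_prop))) (Eventually.of_forall fun t => ?_)
  rw [norm_mul, Complex.norm_real, Complex.norm_exp, Real.norm_eq_abs, abs_of_nonneg (fr_nonneg t)]
  simp only [Complex.mul_re, Complex.neg_re, Complex.neg_im, Complex.ofReal_re, Complex.ofReal_im,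
    mul_zero, sub_zero]
  exact mul_le_mul_of_nonneg_right (fr_le t) (exp_pos _).le

theorem laplace_eq {z : ℂ} (hz : 0 < z.re) :
    ∫ t in Ioi (0 : ℝ), ((fr t - 1 : ℝ) : ℂ) * Complex.exp (-z * t) = bdry z := by
  have hs : 1 < (1 + z).re := by simp [hz]
  have hA := vonMangoldt.eqOn_LFunctionResidueClassAux (q := 1) (a := (0 : ZMod 1))
    (isUnit_of_subsingleton _) hs
  have hL : LSeries (fun n => (vonMangoldt.residueClass (0 : ZMod 1) n : ℂ)) (1 + z)
      = LSeries (fun n => (vonMangoldt n : ℂ)) (1 + z) := by
    refine LSeries_congr (fun {n} _ => ?_) _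
    rw [vonMangoldt.residueClass, Set.indicator_of_mem (by simp [Subsingleton.elim (n : ZMod 1) 0])]
  have hI : LSeries (fun n => (vonMangoldt n : ℂ)) (1 + z)
      = (1 + z) * ∫ t in Ioi (1 : ℝ),
        (∑ k ∈ Finset.Icc 1 ⌊t⌋₊, (vonMangoldt k : ℂ)) * (t : ℂ) ^ (-(1 + z + 1)) := by
    refine LSeries_eq_mul_integral_of_nonneg _ zero_le_one hs
      (Asymptotics.IsBigO.of_bound (log 4 + 4) (Eventually.of_forall fun n => ?_))
      (fun _ => ArithmeticFunction.vonMangoldt_nonneg)
    have h0 : ∑ k ∈ Finset.Icc 1 n, vonMangoldt k = psi n := by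
      rw [psi, Nat.floor_natCast]; congr 1
    rw [h0, Real.norm_eq_abs, abs_of_nonneg (psi_nonneg _), Real.rpow_one, Real.norm_natCast]
    exact psi_le_const_mul_self n.cast_nonneg
  have hI2 : ∫ t in Ioi (1 : ℝ),
      (∑ k ∈ Finset.Icc 1 ⌊t⌋₊, (vonMangoldt k : ℂ)) * (t : ℂ) ^ (-(1 + z + 1))
      = ∫ t in Ioi (0 : ℝ), (fr t : ℂ) * Complex.exp (-z * t) := by
    rw [← Real.exp_zero, ← integral_comp_exp_Ioi]
    refine setIntegral_congr_fun measurableSet_Ioi fun t _ => ?_
    have h0 : (∑ k ∈ Finset.Icc 1 ⌊exp t⌋₊, (vonMangoldt k : ℂ)) = (psi (exp t) : ℂ) := by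
      rw [psi]; push_cast; congr 1
    rw [h0, Complex.real_smul, fr, Complex.cpow_def_of_ne_zero (by exact_mod_cast (exp_pos t).ne'),
      ← Complex.ofReal_log (exp_pos t).le, Real.log_exp, Complex.ofReal_mul,
      Complex.ofReal_exp, Complex.ofReal_exp, mul_left_comm, ← Complex.exp_add, mul_assoc,
      ← Complex.exp_add]
    congr 2
    push_cast
    ring
  have hz0 : z ≠ 0 := fun h => by simp [h] at hz
  have h1z : 1 + z ≠ 0 := fun h => by
    have := congrArg Complex.re h; simp at this; linarith
  have hE : ∫ t in Ioi (0 : ℝ), Complex.exp (-z * t) = 1 / z := by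
    rw [integral_exp_mul_complex_Ioi (by simp [hz]) 0]
    simp
  calc ∫ t in Ioi (0 : ℝ), ((fr t - 1 : ℝ) : ℂ) * Complex.exp (-z * t)
      = (∫ t in Ioi (0 : ℝ), (fr t : ℂ) * Complex.exp (-z * t)) - 1 / z := by
        rw [← hE, ← MeasureTheory.integral_sub (integrableOn_laplace hz)
          (integrableOn_exp_mul_complex_Ioi (by simp [hz]) 0)]
        refine setIntegral_congr_fun measurableSet_Ioi fun t _ => ?_
        push_cast
        ring
    _ = bdry z := by
        rw [bdry, hA]
        simp only
        rw [hL, hI, hI2, show ((1 : ℕ).totient : ℂ)⁻¹ = 1 by simp, add_sub_cancel_left]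
        field_simp
        ring

/-- The main limit: the smoothed function tends to the mass of the kernel. -/
theorem tendsto_smoothed {l : ℝ} (hl : 0 < l) :
    Tendsto (fun u => ∫ s, fr (u - s) * fejerAt l s) atTop (𝓝 (∫ x, fejer x)) := by
  have hB : ∀ t, |fr t - 1| ≤ log 4 + 4 := fun t => by
    have := fr_nonneg t; have := fr_le t; have : (0 : ℝ) ≤ log 4 := log_nonneg (by norm_num)
    exact abs_le.2 ⟨by linarith, by linarith⟩
  have hK := integrable_fejerAt hl
  have hKu : ∀ u, Integrable (fun t => fejerAt l (u - t)) := fun u => hK.comp_sub_left u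
  have hmeas : Measurable fun t => fr t - 1 := measurable_fr.sub_const 1
  set F : ℝ → ℂ := fun ξ => (triang l ξ : ℂ) * bdry (Complex.I * ξ) with hF
  -- the identity on the boundary line
  have key : ∀ u, ∫ t in Ioi (0 : ℝ), (((fr t - 1) * fejerAt l (u - t) : ℝ) : ℂ)
      = ∫ ξ in (-l)..l, F ξ * Complex.exp (Complex.I * ξ * u) := by
    intro u
    let σ : ℕ → ℝ := fun n => 1 / ((n : ℝ) + 1)
    have hσ : ∀ n, 0 < σ n := fun n => by positivity
    have hσ1 : Tendsto σ atTop (𝓝 0) := tendsto_one_div_add_atTop_nhds_zero_nat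
    have eq : ∀ n, ∫ t in Ioi (0 : ℝ),
        (((fr t - 1) * exp (-(σ n) * t) * fejerAt l (u - t) : ℝ) : ℂ)
        = ∫ ξ in (-l)..l, (triang l ξ : ℂ) * Complex.exp (Complex.I * ξ * u)
            * bdry (σ n + Complex.I * ξ) := by
      intro n
      set G : ℝ → ℝ → ℂ := fun t ξ => (((fr t - 1) * exp (-(σ n) * t) : ℝ) : ℂ)
        * ((triang l ξ : ℂ) * Complex.exp (Complex.I * ξ * ((u - t : ℝ) : ℂ))) with hG
      have hint : Integrable (Function.uncurry G)
          ((volume.restrict (Ioi (0 : ℝ))).prod (volume.restrict (Ioc (-l) l))) := by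
        have h0 : Integrable (fun p : ℝ × ℝ => ((log 4 + 4) * exp (-(σ n) * p.1)) * (1 : ℝ))
            ((volume.restrict (Ioi (0 : ℝ))).prod (volume.restrict (Ioc (-l) l))) :=
          ((exp_neg_integrableOn_Ioi 0 (hσ n)).const_mul _).mul_prod (integrable_const _)
        refine h0.mono' ?_ ?_
        · refine Measurable.aestronglyMeasurable ?_
          simp only [hG, Function.uncurry_def]
          refine (Complex.measurable_ofReal.comp ((hmeas.comp measurable_fst).mul
            (by fun_prop))).mul (Continuous.measurable ?_)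
          unfold triang; fun_prop
        · rw [Measure.prod_restrict]
          refine (ae_restrict_iff' (measurableSet_Ioi.prod measurableSet_Ioc)).2
            (Eventually.of_forall fun p hp => ?_)
          simp only [hG, Function.uncurry_def]
          rw [norm_mul, norm_mul, Complex.norm_real, Complex.norm_real, Complex.norm_exp,
            Real.norm_eq_abs, Real.norm_eq_abs, abs_mul, abs_of_pos (exp_pos _)]
          have ht : |triang l p.2| ≤ 1 := by
            have h2 : |p.2| ≤ l := abs_le.2 ⟨hp.2.1.le, hp.2.2⟩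
            have h3 : |p.2| / l ≤ 1 := (div_le_one hl).2 h2
            exact abs_le.2 ⟨by unfold triang; linarith,
              by unfold triang; linarith [div_nonneg (abs_nonneg p.2) hl.le]⟩
          simp only [Complex.mul_re, Complex.mul_im, Complex.I_re, Complex.I_im, Complex.ofReal_re,
            Complex.ofReal_im, mul_zero, zero_mul, sub_zero, add_zero, Real.exp_zero, mul_one]
          exact (mul_le_of_le_one_right (by positivity) ht).trans
            (mul_le_mul_of_nonneg_right (hB p.1) (exp_pos _).le)
      have hswap := integral_integral_swap hint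
      have e1 : ∀ t, ∫ ξ in Ioc (-l) l, G t ξ
          = (((fr t - 1) * exp (-(σ n) * t) * fejerAt l (u - t) : ℝ) : ℂ) := fun t => by
        rw [← intervalIntegral.integral_of_le (by linarith)]
        simp only [hG]
        rw [intervalIntegral.integral_const_mul, fourier_triang hl]
        push_cast; ring
      have e2 : ∀ ξ, ∫ t in Ioi (0 : ℝ), G t ξ
          = (triang l ξ : ℂ) * Complex.exp (Complex.I * ξ * u) * bdry (σ n + Complex.I * ξ) := by
        intro ξ
        rw [← laplace_eq (z := σ n + Complex.I * ξ) (by simp [hσ n]),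
          ← MeasureTheory.integral_const_mul]
        refine setIntegral_congr_fun measurableSet_Ioi fun t _ => ?_
        simp only [hG]
        push_cast
        have : Complex.exp (Complex.I * ξ * (u - t)) * Complex.exp (-(σ n) * t)
            = Complex.exp (Complex.I * ξ * u) * Complex.exp (-(σ n + Complex.I * ξ) * t) := by
          rw [← Complex.exp_add, ← Complex.exp_add]; ring_nf
        linear_combination ((fr t : ℂ) - 1) * (triang l ξ : ℂ) * this
      simp only [e1, e2] at hswap
      rw [intervalIntegral.integral_of_le (by linarith)]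
      exact hswap
    have limL : Tendsto (fun n => ∫ t in Ioi (0 : ℝ),
        (((fr t - 1) * exp (-(σ n) * t) * fejerAt l (u - t) : ℝ) : ℂ)) atTop
        (𝓝 (∫ t in Ioi (0 : ℝ), (((fr t - 1) * fejerAt l (u - t) : ℝ) : ℂ))) := by
      refine tendsto_integral_of_dominated_convergence
        (fun t => (log 4 + 4) * fejerAt l (u - t)) (fun n => ?_)
        ((hKu u).integrableOn.const_mul _) (fun n => ?_) (Eventually.of_forall fun t => ?_)
      · exact (Complex.measurable_ofReal.comp ((hmeas.mul (by fun_prop)).mul
          ((continuous_fejerAt l).measurable.comp (by fun_prop)))).aestronglyMeasurable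
      · filter_upwards [ae_restrict_mem measurableSet_Ioi] with t ht
        rw [Complex.norm_real, Real.norm_eq_abs, abs_mul, abs_mul,
          abs_of_nonneg (fejerAt_nonneg hl.le _), abs_of_pos (exp_pos _)]
        have h1 : exp (-(σ n) * t) ≤ 1 :=
          exp_le_one_iff.2 (by nlinarith [hσ n, mem_Ioi.1 ht])
        exact mul_le_mul_of_nonneg_right
          (by nlinarith [hB t, abs_nonneg (fr t - 1), exp_pos (-(σ n) * t)])
          (fejerAt_nonneg hl.le _)
      · refine (Complex.continuous_ofReal.tendsto _).comp ?_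
        have : Tendsto (fun n => exp (-(σ n) * t)) atTop (𝓝 (exp (-0 * t))) :=
          ((hσ1.neg).mul_const t).rexp
        simpa using (this.const_mul (fr t - 1)).mul_const (fejerAt l (u - t))
    have hcompact : IsCompact ((fun p : ℝ × ℝ => (p.1 : ℂ) + Complex.I * p.2) ''
        (Icc 0 1 ×ˢ Icc (-l) l)) :=
      (isCompact_Icc.prod isCompact_Icc).image (by fun_prop)
    obtain ⟨D, hD⟩ := hcompact.exists_bound_of_continuousOn (continuousOn_bdry.mono (by
      rintro _ ⟨p, hp, rfl⟩
      simp [(mem_prod.1 hp).1.1]))
    have hcz : ∀ n, Continuous fun ξ : ℝ => bdry (σ n + Complex.I * ξ) := fun n =>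
      continuousOn_bdry.comp_continuous (by fun_prop) fun ξ => by simp [(hσ n).le]
    have limR : Tendsto (fun n => ∫ ξ in (-l)..l, (triang l ξ : ℂ)
          * Complex.exp (Complex.I * ξ * u) * bdry (σ n + Complex.I * ξ)) atTop
        (𝓝 (∫ ξ in (-l)..l, F ξ * Complex.exp (Complex.I * ξ * u))) := by
      refine intervalIntegral.tendsto_integral_filter_of_dominated_convergence (fun _ => D)
        (Eventually.of_forall fun n => ?_) (Eventually.of_forall fun n => ?_)
        intervalIntegrable_const (Eventually.of_forall fun ξ _ => ?_)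
      · exact (Continuous.mul (by unfold triang; fun_prop) (hcz n)).aestronglyMeasurable
      · refine Eventually.of_forall fun ξ hξ => ?_
        rw [uIoc_of_le (by linarith)] at hξ
        rw [norm_mul, norm_mul, Complex.norm_real, Complex.norm_exp, Real.norm_eq_abs]
        simp only [Complex.mul_re, Complex.mul_im, Complex.I_re, Complex.I_im, Complex.ofReal_re,
          Complex.ofReal_im, mul_zero, zero_mul, sub_zero, add_zero, Real.exp_zero, mul_one]
        have hσn : σ n ≤ 1 := by
          simp only [σ]; rw [div_le_one (by positivity)]; simp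
        have hb := hD _ ⟨(σ n, ξ), ⟨⟨(hσ n).le, hσn⟩, hξ.1.le, hξ.2⟩, rfl⟩
        have h3 : |ξ| / l ≤ 1 := (div_le_one hl).2 (abs_le.2 ⟨hξ.1.le, hξ.2⟩)
        have ht : |triang l ξ| ≤ 1 := abs_le.2 ⟨by unfold triang; linarith,
          by unfold triang; linarith [div_nonneg (abs_nonneg ξ) hl.le]⟩
        nlinarith [norm_nonneg (bdry (σ n + Complex.I * ξ))]
      · have hw : ContinuousWithinAt bdry {z | 0 ≤ z.re} (Complex.I * ξ) :=
          continuousOn_bdry _ (by simp)
        have h1 : Tendsto (fun n => (σ n : ℂ) + Complex.I * ξ) atTop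
            (𝓝[{z | 0 ≤ z.re}] (Complex.I * ξ)) := by
          refine tendsto_nhdsWithin_iff.2 ⟨?_, Eventually.of_forall fun n => by simp [(hσ n).le]⟩
          simpa using ((Complex.continuous_ofReal.tendsto 0).comp hσ1).add_const (Complex.I * ξ)
        have := (hw.tendsto.comp h1).const_mul ((triang l ξ : ℂ) * Complex.exp (Complex.I * ξ * u))
        simp only [hF]
        convert this using 2
        · rfl
        · ring
    simp only [eq] at limL
    exact tendsto_nhds_unique limL limR
  have hlhs : Tendsto (fun u => ∫ t in Ioi (0 : ℝ), (((fr t - 1) * fejerAt l (u - t) : ℝ) : ℂ))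
      atTop (𝓝 0) := by
    simp only [key]
    have h := Real.tendsto_integral_exp_smul_cocompact ((Ioc (-l) l).indicator F)
    have hw : Tendsto (fun u : ℝ => -u / (2 * π)) atTop (cocompact ℝ) :=
      (tendsto_neg_atTop_atBot.atBot_div_const (by positivity)).mono_right atBot_le_cocompact
    refine (h.comp hw).congr fun u => ?_
    simp only [Function.comp_apply]
    rw [intervalIntegral.integral_of_le (by linarith), ← integral_indicator measurableSet_Ioc]
    refine integral_congr_ae (Eventually.of_forall fun v => ?_)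
    simp only [Circle.smul_def, Real.fourierChar_apply, indicator_apply]
    split_ifs
    · rw [smul_eq_mul, mul_comm (F v)]
      congr 2
      push_cast
      field_simp
    · simp
  have hre : Tendsto (fun u => ∫ t in Ioi (0 : ℝ), (fr t - 1) * fejerAt l (u - t)) atTop (𝓝 0) := by
    have := (Complex.continuous_re.tendsto 0).comp hlhs
    refine (Complex.zero_re ▸ this).congr fun u => ?_
    simp only [Function.comp_apply]
    rw [integral_complex_ofReal, Complex.ofReal_re]
  have hone : Tendsto (fun u => ∫ t in Ioi (0 : ℝ), fejerAt l (u - t)) atTop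
      (𝓝 (∫ x, fejer x)) := by
    have e : ∀ u, ∫ t in Ioi (0 : ℝ), fejerAt l (u - t)
        = ∫ s, (Iio u).indicator (fejerAt l) s := fun u => by
      rw [← integral_indicator measurableSet_Ioi,
        ← integral_sub_left_eq_self ((Iio u).indicator (fejerAt l)) volume u]
      congr 1; funext t
      simp only [indicator_apply, mem_Ioi, mem_Iio, sub_lt_self_iff]
    simp only [e]
    rw [← integral_fejerAt hl]
    refine tendsto_integral_filter_of_dominated_convergence (fejerAt l)
      (Eventually.of_forall fun u => (hK.indicator measurableSet_Iio).aestronglyMeasurable)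
      (Eventually.of_forall fun u => Eventually.of_forall fun s => ?_) hK
      (Eventually.of_forall fun s => ?_)
    · rw [Real.norm_eq_abs, indicator_apply]
      split_ifs
      · rw [abs_of_nonneg (fejerAt_nonneg hl.le _)]
      · simpa using fejerAt_nonneg hl.le _
    · exact tendsto_const_nhds.congr' ((eventually_gt_atTop s).mono fun u hu =>
        (indicator_of_mem (mem_Iio.2 hu) _).symm)
  have hsum := hre.add hone
  rw [zero_add] at hsum
  refine hsum.congr fun u => ?_
  have hi1 : IntegrableOn (fun t => (fr t - 1) * fejerAt l (u - t)) (Ioi 0) :=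
    (hKu u).integrableOn.bdd_mul hmeas.aestronglyMeasurable
      (Eventually.of_forall fun t => by rw [Real.norm_eq_abs]; exact hB t)
  rw [← integral_add hi1 (hKu u).integrableOn,
    ← integral_sub_left_eq_self (fun s => fr (u - s) * fejerAt l s) volume u]
  simp only [sub_sub_cancel, sub_mul, one_mul, sub_add_cancel]
  exact setIntegral_eq_integral_of_forall_compl_eq_zero fun t ht => by
    rw [fr_of_nonpos (by simpa using ht), zero_mul]

end Vale.Agent.P031.PNT
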