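import Vale.Agent.P031.Interfaces
import Vale.Agent.P031.PNT.Laplace

/-!
The prime number theorem.
-/

open Real MeasureTheory Set Filter Topology Chebyshev

namespace Vale.Agent.P031.PNT

theorem integrable_fr_mul {l : ℝ} (hl : 0 < l) (u : ℝ) :
    Integrable fun s => fr (u - s) * fejerAt l s :=
  (integrable_fejerAt hl).bdd_mul (measurable_fr.comp (by fun_prop)).aestronglyMeasurable
    (Eventually.of_forall fun s => by
      rw [Real.norm_eq_abs, abs_of_nonneg (fr_nonneg _)]; exact fr_le _)

theorem fr_upper {δ R : ℝ} (hδ : 0 < δ) (hR : 0 < R) (v : ℝ) :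
    exp (-(2 * δ)) * fr v * ∫ x in (-R)..R, fejer x
      ≤ ∫ s, fr (v + δ - s) * fejerAt (R / δ) s := by
  have hl : 0 < R / δ := div_pos hR hδ
  have e := integral_fejerAt_interval hl δ
  rw [div_mul_cancel₀ R hδ.ne'] at e
  rw [← e, intervalIntegral.integral_of_le (by linarith), ← integral_indicator measurableSet_Ioc,
    ← MeasureTheory.integral_const_mul]
  refine integral_mono (((integrable_fejerAt hl).indicator measurableSet_Ioc).const_mul _)
    (integrable_fr_mul hl _) fun s => ?_
  simp only [indicator_apply]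
  split_ifs with h
  · refine mul_le_mul_of_nonneg_right ?_ (fejerAt_nonneg hl.le _)
    refine le_trans ?_ (fr_slow (s := v) (t := v + δ - s) (by linarith [h.2]))
    rw [mul_comm]
    refine mul_le_mul_of_nonneg_left (exp_le_exp.2 (by linarith [h.1])) (fr_nonneg _)
  · simpa using mul_nonneg (fr_nonneg _) (fejerAt_nonneg hl.le _)

theorem fr_lower {δ R : ℝ} (hδ : 0 < δ) (hR : 0 < R) (v : ℝ) :
    ∫ s, fr (v - δ - s) * fejerAt (R / δ) s
      ≤ exp (2 * δ) * fr v * (∫ x, fejer x)
        + (log 4 + 4) * ((∫ x, fejer x) - ∫ x in (-R)..R, fejer x) := by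
  have hl : 0 < R / δ := div_pos hR hδ
  have e := integral_fejerAt_interval hl δ
  rw [div_mul_cancel₀ R hδ.ne'] at e
  have hK := integrable_fejerAt hl
  rw [← e, ← integral_fejerAt hl, intervalIntegral.integral_of_le (by linarith),
    ← integral_indicator measurableSet_Ioc, ← MeasureTheory.integral_sub hK
      (hK.indicator measurableSet_Ioc), ← MeasureTheory.integral_const_mul,
    ← MeasureTheory.integral_const_mul]
  have hadd := MeasureTheory.integral_add (hK.const_mul (exp (2 * δ) * fr v))
    ((hK.sub (hK.indicator (measurableSet_Ioc (a := -δ) (b := δ)))).const_mul (log 4 + 4))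
  simp only [Pi.sub_apply] at hadd
  rw [← hadd]
  refine integral_mono (integrable_fr_mul hl _)
    ((hK.const_mul _).add ((hK.sub (hK.indicator measurableSet_Ioc)).const_mul _)) fun s => ?_
  have hk := fejerAt_nonneg hl.le s
  simp only [indicator_apply, Pi.add_apply, Pi.sub_apply]
  split_ifs with h
  · rw [sub_self, mul_zero, add_zero]
    refine mul_le_mul_of_nonneg_right ?_ hk
    have h1 := fr_slow (s := v - δ - s) (t := v) (by linarith [h.1])
    have h2 : fr (v - δ - s) ≤ fr v * exp (v - (v - δ - s)) := by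
      rw [exp_sub, ← mul_div_assoc, div_le_iff₀ (exp_pos _)] at h1
      rw [exp_sub, ← mul_div_assoc, le_div_iff₀ (exp_pos _)]
      linarith
    refine h2.trans ?_
    rw [mul_comm]
    exact mul_le_mul_of_nonneg_right (exp_le_exp.2 (by linarith [h.2])) (fr_nonneg _)
  · rw [sub_zero]
    have : 0 ≤ exp (2 * δ) * fr v * fejerAt (R / δ) s :=
      mul_nonneg (mul_nonneg (exp_pos _).le (fr_nonneg _)) hk
    linarith [mul_le_mul_of_nonneg_right (fr_le (v - δ - s)) hk]

theorem tendsto_fr : Tendsto fr atTop (𝓝 1) := by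
  set P := ∫ x, fejer x with hP
  have hPpos : 0 < P := integral_fejer_pos
  have hlim : Tendsto (fun R : ℝ => ∫ x in (-R)..R, fejer x) atTop (𝓝 P) :=
    intervalIntegral_tendsto_integral integrable_fejer tendsto_neg_atTop_atBot tendsto_id
  have hlog4 : (0 : ℝ) ≤ log 4 := log_nonneg (by norm_num)
  rw [tendsto_order]
  constructor
  · intro a ha
    obtain ⟨δ, hδ, hδa⟩ : ∃ δ : ℝ, 0 < δ ∧ a * exp (2 * δ) < 1 := by
      have h : Tendsto (fun δ : ℝ => a * exp (2 * δ)) (𝓝[>] 0) (𝓝 (a * exp (2 * 0))) :=
        ((Continuous.tendsto (by fun_prop) (0 : ℝ))).mono_left nhdsWithin_le_nhds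
      rw [mul_zero, exp_zero, mul_one] at h
      obtain ⟨δ, h1, h2⟩ := ((h.eventually_lt_const ha).and self_mem_nhdsWithin).exists
      exact ⟨δ, h2, h1⟩
    have hg : 0 < P * (1 - a * exp (2 * δ)) := mul_pos hPpos (by linarith)
    obtain ⟨R, hR, hR1⟩ := ((eventually_gt_atTop (0 : ℝ)).and (hlim.eventually_const_lt
      (show P - P * (1 - a * exp (2 * δ)) / (2 * (log 4 + 4)) < P by
        have : 0 < P * (1 - a * exp (2 * δ)) / (2 * (log 4 + 4)) := by positivity
        linarith))).exists
    have hev := ((tendsto_smoothed (div_pos hR hδ)).comp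
      (tendsto_atTop_add_const_right atTop (-δ) tendsto_id)).eventually_const_lt
      (show P - P * (1 - a * exp (2 * δ)) / 2 < P by linarith)
    filter_upwards [hev] with v hv
    simp only [Function.comp_apply, id, ← sub_eq_add_neg] at hv
    have h1 := fr_lower hδ hR v
    rw [← hP] at h1
    have h2 : (log 4 + 4) * (P - ∫ x in (-R)..R, fejer x) < P * (1 - a * exp (2 * δ)) / 2 := by
      calc _ < (log 4 + 4) * (P * (1 - a * exp (2 * δ)) / (2 * (log 4 + 4))) :=
            mul_lt_mul_of_pos_left (by linarith) (by linarith)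
        _ = _ := by field_simp
    by_contra hc
    have h3 := mul_le_mul_of_nonneg_left (not_lt.1 hc) (mul_pos (exp_pos (2 * δ)) hPpos).le
    nlinarith
  · intro b hb
    obtain ⟨δ, hδ, hδb⟩ : ∃ δ : ℝ, 0 < δ ∧ exp (2 * δ) < b := by
      have h : Tendsto (fun δ : ℝ => exp (2 * δ)) (𝓝[>] 0) (𝓝 (exp (2 * 0))) :=
        ((Continuous.tendsto (by fun_prop) (0 : ℝ))).mono_left nhdsWithin_le_nhds
      rw [mul_zero, exp_zero] at h
      obtain ⟨δ, h1, h2⟩ := ((h.eventually_lt_const hb).and self_mem_nhdsWithin).exists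
      exact ⟨δ, h2, h1⟩
    have hb0 : 0 < b := lt_trans (by norm_num) hb
    have hm : P * exp (2 * δ) / b < P := by
      rw [div_lt_iff₀ hb0]; exact mul_lt_mul_of_pos_left hδb hPpos
    obtain ⟨R, hR, hR1⟩ := ((eventually_gt_atTop (0 : ℝ)).and (hlim.eventually_const_lt hm)).exists
    have hpos : (0 : ℝ) < ∫ x in (-R)..R, fejer x := lt_trans (by positivity) hR1
    have hev := ((tendsto_smoothed (div_pos hR hδ)).comp
      (tendsto_atTop_add_const_right atTop δ tendsto_id)).eventually_lt_const
      (show P < b * exp (-(2 * δ)) * ∫ x in (-R)..R, fejer x by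
        rw [div_lt_iff₀ hb0] at hR1
        rw [exp_neg, mul_assoc, inv_mul_eq_div, mul_div_assoc', lt_div_iff₀ (exp_pos _)]
        linarith)
    filter_upwards [hev] with v hv
    simp only [Function.comp_apply, id] at hv
    have h1 := (fr_upper hδ hR v).trans_lt hv
    have : 0 < exp (-(2 * δ)) * ∫ x in (-R)..R, fejer x := mul_pos (exp_pos _) hpos
    by_contra hc
    nlinarith [mul_le_mul_of_nonneg_left (not_lt.1 hc) this.le]

theorem tendsto_psi_div : Tendsto (fun x : ℝ => psi x / x) atTop (𝓝 1) := by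
  refine (tendsto_fr.comp tendsto_log_atTop).congr' ?_
  filter_upwards [eventually_gt_atTop (0 : ℝ)] with x hx
  simp only [Function.comp_apply, fr, exp_log hx, exp_neg, div_eq_mul_inv]

theorem tendsto_theta_div : Tendsto (fun x : ℝ => theta x / x) atTop (𝓝 1) := by
  have h0 : Tendsto (fun x : ℝ => 2 * √x * log x / x) atTop (𝓝 0) := by
    have h := (isLittleO_log_rpow_atTop (r := (1 / 2 : ℝ)) (by norm_num)).tendsto_div_nhds_zero
    have h2 := h.const_mul 2
    rw [mul_zero] at h2
    refine h2.congr' ?_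
    filter_upwards [eventually_gt_atTop (0 : ℝ)] with x hx
    rw [← sqrt_eq_rpow]
    field_simp
    rw [sq_sqrt hx.le]
  have h1 : Tendsto (fun x : ℝ => (psi x - theta x) / x) atTop (𝓝 0) := by
    refine squeeze_zero' ?_ ?_ h0
    · filter_upwards [eventually_gt_atTop (0 : ℝ)] with x hx
      exact div_nonneg (by linarith [theta_le_psi x]) hx.le
    · filter_upwards [eventually_ge_atTop (1 : ℝ)] with x hx
      exact div_le_div_of_nonneg_right (psi_sub_theta_le hx) (by linarith)
  have := tendsto_psi_div.sub h1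
  rw [sub_zero] at this
  refine this.congr fun x => ?_
  ring

/-- The prime number theorem. -/
theorem pnt : PNTStmt := by
  unfold PNTStmt
  have h := primeCounting_sub_theta_div_log_isBigO
  obtain ⟨C, hC⟩ := h.bound
  have h1 : Tendsto (fun x : ℝ =>
      (Nat.primeCounting ⌊x⌋₊ : ℝ) * log x / x - theta x / x) atTop (𝓝 0) := by
    refine squeeze_zero_norm' (a := fun x : ℝ => C * (log x)⁻¹) ?_ ?_
    · filter_upwards [hC, eventually_gt_atTop (1 : ℝ)] with x hx hx1
      have hl : 0 < log x := log_pos hx1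
      have hx0 : (0 : ℝ) < x := by linarith
      have e : (Nat.primeCounting ⌊x⌋₊ : ℝ) * log x / x - theta x / x
          = ((Nat.primeCounting ⌊x⌋₊ : ℝ) - theta x / log x) * (log x / x) := by field_simp
      rw [Real.norm_eq_abs (x / log x ^ 2), abs_of_nonneg (by positivity)] at hx
      rw [e, norm_mul, Real.norm_eq_abs (log x / x), abs_of_nonneg (by positivity)]
      refine (mul_le_mul_of_nonneg_right hx (by positivity)).trans_eq ?_
      field_simp
    · simpa using tendsto_log_atTop.inv_tendsto_atTop.const_mul C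
  have := h1.add tendsto_theta_div
  rw [zero_add] at this
  exact this.congr fun x => by ring

end Vale.Agent.P031.PNT
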