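import Mathlib

/-!
The Fejer kernel.
-/

open Real MeasureTheory intervalIntegral Set Filter Topology

namespace Vale.Agent.P031.PNT

/-- The Fejer kernel as a Fourier integral of the triangle. -/
noncomputable def fejer (x : ℝ) : ℝ := ∫ ξ in (-1 : ℝ)..1, (1 - |ξ|) * cos (x * ξ)

/-- The kernel at frequency `l`. -/
noncomputable def fejerAt (l x : ℝ) : ℝ := l * fejer (l * x)

theorem fejer_eq {x : ℝ} (hx : x ≠ 0) : fejer x = 2 * (1 - cos x) / x ^ 2 := by
  have h1 : ∫ ξ in (0 : ℝ)..1, (1 - |ξ|) * cos (x * ξ) = (1 - cos x) / x ^ 2 := by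
    rw [integral_congr (g := fun ξ => (1 - ξ) * cos (x * ξ)) fun ξ hξ => by
      rw [uIcc_of_le zero_le_one] at hξ; simp [abs_of_nonneg hξ.1]]
    have hd : ∀ ξ ∈ uIcc (0 : ℝ) 1,
        HasDerivAt (fun t => (1 - t) * sin (x * t) / x - cos (x * t) / x ^ 2)
          ((1 - ξ) * cos (x * ξ)) ξ := by
      intro ξ _
      have a := (hasDerivAt_id ξ).const_mul x
      refine ((((hasDerivAt_id ξ).const_sub 1).mul a.sin).div_const x).sub
        (a.cos.div_const (x ^ 2)) |>.congr_deriv ?_
      simp only [id]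
      field_simp
      ring
    rw [integral_eq_sub_of_hasDerivAt hd (Continuous.intervalIntegrable (by fun_prop) _ _)]
    simp
    ring
  have h2 : ∫ ξ in (-1 : ℝ)..0, (1 - |ξ|) * cos (x * ξ) = (1 - cos x) / x ^ 2 := by
    rw [← h1]
    have := integral_comp_neg (a := (0 : ℝ)) (b := 1) fun ξ => (1 - |ξ|) * cos (x * ξ)
    simpa using this.symm
  rw [fejer, ← integral_add_adjacent_intervals (b := (0 : ℝ))
    (Continuous.intervalIntegrable (by fun_prop) _ _)
    (Continuous.intervalIntegrable (by fun_prop) _ _), h1, h2]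
  ring

theorem continuous_fejer : Continuous fejer := by
  unfold fejer
  exact continuous_parametric_intervalIntegral_of_continuous' (by fun_prop) _ _

theorem fejer_nonneg (x : ℝ) : 0 ≤ fejer x := by
  rcases eq_or_ne x 0 with rfl | hx
  · refine intervalIntegral.integral_nonneg (by norm_num) fun ξ hξ => ?_
    simp [abs_le.2 ⟨hξ.1, hξ.2⟩]
  · rw [fejer_eq hx]
    have := cos_le_one x
    positivity

theorem fejer_le_two (x : ℝ) : fejer x ≤ 2 := by
  have h := intervalIntegral.norm_integral_le_of_norm_le_const (a := (-1 : ℝ)) (b := 1) (C := 1)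
    (f := fun ξ => (1 - |ξ|) * cos (x * ξ)) fun ξ hξ => by
      rw [uIoc_of_le (by norm_num)] at hξ
      rw [Real.norm_eq_abs, abs_mul]
      have h1 : |(1 - |ξ|)| ≤ 1 := abs_le.2 ⟨by linarith [abs_le.2 ⟨hξ.1.le, hξ.2⟩], by
        linarith [abs_nonneg ξ]⟩
      exact mul_le_one₀ h1 (abs_nonneg _) (abs_cos_le_one _)
  rw [Real.norm_eq_abs] at h
  norm_num at h
  exact (le_abs_self _).trans h

theorem fejer_le (x : ℝ) : fejer x ≤ 8 * (1 + x ^ 2)⁻¹ := by
  rw [← div_eq_mul_inv, le_div_iff₀ (by positivity)]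
  rcases le_or_gt (x ^ 2) 1 with h | h
  · nlinarith [fejer_le_two x, fejer_nonneg x, sq_nonneg x]
  · have hx : x ≠ 0 := by rintro rfl; norm_num at h
    rw [fejer_eq hx, div_mul_eq_mul_div, div_le_iff₀ (by positivity)]
    nlinarith [neg_one_le_cos x, cos_le_one x, sq_nonneg x]

theorem integrable_fejer : Integrable fejer :=
  Integrable.mono' ((integrable_inv_one_add_sq).const_mul 8) continuous_fejer.aestronglyMeasurable
    (Eventually.of_forall fun x => by
      rw [Real.norm_eq_abs, abs_of_nonneg (fejer_nonneg x)]; exact fejer_le x)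

theorem integral_fejer_pos : 0 < ∫ x, fejer x := by
  rw [integral_pos_iff_support_of_nonneg fejer_nonneg integrable_fejer]
  refine (IsOpen.measure_pos volume continuous_fejer.isOpen_support ⟨0, ?_⟩)
  have h2 : ∫ ξ in (0 : ℝ)..1, (1 - |ξ|) * cos ((0 : ℝ) * ξ) = 1 / 2 := by
    rw [integral_congr (g := fun ξ => 1 - ξ) fun ξ hξ => by
      rw [uIcc_of_le zero_le_one] at hξ; simp [abs_of_nonneg hξ.1]]
    rw [intervalIntegral.integral_sub intervalIntegrable_const intervalIntegral.intervalIntegrable_id]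
    simp
    norm_num
  have h3 : 0 ≤ ∫ ξ in (-1 : ℝ)..0, (1 - |ξ|) * cos ((0 : ℝ) * ξ) :=
    intervalIntegral.integral_nonneg (by norm_num) fun ξ hξ => by
      simp [abs_of_nonpos hξ.2]; linarith [hξ.1]
  have h4 : fejer 0 = (∫ ξ in (-1 : ℝ)..0, (1 - |ξ|) * cos ((0 : ℝ) * ξ)) + 1 / 2 := by
    rw [fejer, ← h2, integral_add_adjacent_intervals
      (Continuous.intervalIntegrable (by fun_prop) _ _)
      (Continuous.intervalIntegrable (by fun_prop) _ _)]
  simp only [Function.mem_support, ne_eq]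
  linarith

theorem continuous_fejerAt (l : ℝ) : Continuous (fejerAt l) := by
  unfold fejerAt
  exact continuous_const.mul (continuous_fejer.comp (by fun_prop))

theorem fejerAt_nonneg {l : ℝ} (hl : 0 ≤ l) (x : ℝ) : 0 ≤ fejerAt l x :=
  mul_nonneg hl (fejer_nonneg _)

theorem integrable_fejerAt {l : ℝ} (hl : 0 < l) : Integrable (fejerAt l) :=
  (integrable_fejer.comp_mul_left' hl.ne').const_mul l

theorem integral_fejerAt {l : ℝ} (hl : 0 < l) : ∫ x, fejerAt l x = ∫ x, fejer x := by
  simp only [fejerAt, MeasureTheory.integral_const_mul]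
  rw [Measure.integral_comp_mul_left, abs_of_pos (inv_pos.2 hl), smul_eq_mul,
    mul_inv_cancel_left₀ hl.ne']

theorem integral_fejerAt_interval {l : ℝ} (hl : 0 < l) (a : ℝ) :
    ∫ x in (-a)..a, fejerAt l x = ∫ x in (-(l * a))..(l * a), fejer x := by
  simp only [fejerAt, intervalIntegral.integral_const_mul]
  rw [mul_integral_comp_mul_left]
  ring_nf

/-- The triangle at frequency `l`. -/
noncomputable def triang (l ξ : ℝ) : ℝ := 1 - |ξ| / l

open Complex in
theorem fourier_triang {l : ℝ} (hl : 0 < l) (x : ℝ) :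
    ∫ ξ in (-l)..l, (triang l ξ : ℂ) * cexp (I * ξ * x) = (fejerAt l x : ℂ) := by
  have hodd : ∫ ξ in (-l)..l, triang l ξ * Real.sin (x * ξ) = 0 := by
    have := integral_comp_neg (a := -l) (b := l) fun ξ => triang l ξ * Real.sin (x * ξ)
    simp [triang] at this
    simp [triang]
    linarith
  have hcos : ∫ ξ in (-l)..l, triang l ξ * Real.cos (x * ξ) = fejerAt l x := by
    rw [fejerAt, fejer]
    have := intervalIntegral.smul_integral_comp_mul_left
      (fun ξ => triang l ξ * Real.cos (x * ξ)) l (a := -1) (b := 1)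
    simp only [smul_eq_mul, mul_neg, mul_one] at this
    rw [← this]
    congr 1
    refine integral_congr fun ξ _ => ?_
    simp only [triang, abs_mul, abs_of_pos hl, mul_div_cancel_left₀ _ hl.ne']
    rw [mul_left_comm x l ξ, mul_assoc l x ξ]
  have e : ∀ ξ : ℝ, (triang l ξ : ℂ) * cexp (I * ξ * x)
      = ((triang l ξ * Real.cos (x * ξ) : ℝ) : ℂ) + ((triang l ξ * Real.sin (x * ξ) : ℝ) : ℂ) * I := by
    intro ξ
    rw [show I * ξ * x = ((x * ξ : ℝ) : ℂ) * I by push_cast; ring, exp_mul_I, ← ofReal_cos,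
      ← ofReal_sin]
    push_cast
    ring
  simp only [e]
  rw [intervalIntegral.integral_add, intervalIntegral.integral_mul_const,
    intervalIntegral.integral_ofReal, intervalIntegral.integral_ofReal, hodd, hcos]
  · simp
  · exact Continuous.intervalIntegrable (by unfold triang; fun_prop) _ _
  · exact Continuous.intervalIntegrable (by unfold triang; fun_prop) _ _

end Vale.Agent.P031.PNT
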